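import Vale.Agent.P272.K.AMP.BIG.Defs

/-! # Block FIN of AMP-BIG: the assembly -/

open scoped Manifold ContDiff ComplexOrder Topology
open Complex Set Filter MeasureTheory

set_option linter.all false

noncomputable section

namespace Vale.Agent.P272.K.AMP.BIG

open INT (intX PP)
open Main

variable {n : ℕ}

section
variable {X : Type} [TopologicalSpace X] [ChartedSpace (Cm n) X] [IsManifold 𝓘(ℂ, Cm n) ω X]
  [T2Space X] [CompactSpace X] {w g : Chart n X → Cm n → Matrix (Fin n) (Fin n) ℂ}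

/-- `(K_X + t w)^n ≥ K_X^n` -/
lemma PP_zero_le (hw : IsKahler w) (hpos : ∀ t : ℝ, 0 < t → t ≤ 1 → Pos w t) {t : ℝ}
    (ht : 0 < t) (ht1 : t ≤ 1) : PP (phi0 w) w 0 ≤ PP (phi0 w) w t := by
  have hc : IsCanonicalMetric (phi0 w) := isCanonical_logdet hw.toIsHermitian
  have hwc := INT.IsKahler.isClosedForm hw
  have hd : ∀ s, HasDerivAt (PP (phi0 w) w) (deriv (PP (phi0 w) w) s) s := fun s =>
    (INT.PP_hasDerivAt hc hwc s).differentiableAt.hasDerivAt
  have hmono : MonotoneOn (PP (phi0 w) w) (Icc 0 1) := by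
    apply monotoneOn_of_deriv_nonneg (convex_Icc _ _)
    · exact fun s _ => (hd s).continuousAt.continuousWithinAt
    · exact fun s _ => (hd s).differentiableAt.differentiableWithinAt
    · intro s hs
      rw [interior_Icc] at hs
      obtain ⟨ψ, hψ, hψpos⟩ := hpos s hs.1 hs.2.le
      have e1 : PP (phi0 w) w = PP ψ w := funext fun t => INT.PP_eq hc hψ hwc t
      rw [e1, (INT.PP_hasDerivAt' hψ hwc hψpos).deriv]
      refine INT.intX_nonneg fun e x hx => ?_
      exact mul_nonneg (trace_mul_nonneg_re (hψpos e x hx).inv.posSemidef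
        (hw.posDef e x hx).posSemidef) (INT.posDef_det_re (hψpos e x hx)).1.le
  exact hmono ⟨le_rfl, zero_le_one⟩ ⟨ht.le, ht1⟩ ht.le

omit [IsManifold 𝓘(ℂ, Cm n) ω X] [T2Space X] [CompactSpace X] in
lemma ricGeS_of_tke {t b : ℝ} (hb : 0 ≤ b) {σ : X → ℝ} (hσ : Adm w t σ)
    (hg : IsTKE w t b σ g) : RicGeS w t g := by
  intro e x hx
  have h1 : -cHess (fun z => Real.log (g e z).det.re) (e x) + g e (e x) -
      (t : ℂ) • w e (e x) = (b : ℂ) • chiF w t σ e (e x) := by
    have h2 := hg e x hx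
    set A := cHess (fun z => Real.log (g e z).det.re) (e x)
    calc -A + g e (e x) - (t : ℂ) • w e (e x)
        = -A + (A + (t : ℂ) • w e (e x) + (b : ℂ) • chiF w t σ e (e x)) -
          (t : ℂ) • w e (e x) := by rw [← h2]
      _ = _ := by abel
  rw [h1]
  exact posSemidef_ofReal_smul (hσ.pos e x hx).posSemidef hb

/-- the end of the proof: `g ≥ w / C` and `C t ≤ 1/4` give that `K_X` is positive -/
lemma pos_zero_of_trace (hw : IsKahler w) (hg : IsKahler g) {t b C : ℝ} (ht : 0 < t)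
    (hb : 0 ≤ b) (hb1 : b ≤ 1) (hC : 0 < C) (htC : t * C ≤ 1 / 4) {σ : X → ℝ}
    (hσ : SmoothFn (n := n) σ) (hke : IsTKE w t b σ g) (htr : ∀ x, trX g w x ≤ C) : Pos w 0 := by
  have hgH := hg.toIsHermitian
  have hwH := hw.toIsHermitian
  have hcg := isCanonical_logdet hgH
  have hcw := isCanonical_logdet hwH
  have htwo : ∀ {f : Cm n → ℝ} {z}, ContDiffAt ℝ ∞ f z → ContDiffAt ℝ 2 f z :=
    fun h => h.of_le (by exact WithTop.coe_le_coe.2 le_top)
  have hb0 : 0 < 1 + b := by linarith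
  refine ⟨fun e z => (1 + b)⁻¹ * (Real.log (g e z).det.re + b * (Real.log (w e z).det.re +
    σ (e.symm z))), ⟨fun e x hx => ?_, fun e e' x hx hx' => ?_⟩, fun e x hx => ?_⟩
  · exact contDiffAt_const.mul ((hcg.smooth e x hx).add (contDiffAt_const.mul
      ((hcw.smooth e x hx).add (hσ e x hx))))
  · simp only [hx.left_inv, hx'.left_inv]
    rw [hcg.change e e' x hx hx', hcw.change e e' x hx hx']
    field_simp
    ring
  · have s1 := hcg.smooth e x hx
    have s2 := hcw.smooth e x hx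
    have s3 := hσ e x hx
    have h1 : cHess (fun z => (1 + b)⁻¹ * (Real.log (g e z).det.re + b * (Real.log (w e z).det.re +
        σ (e.symm z)))) (e x) = (((1 + b)⁻¹ : ℝ) : ℂ) •
        (cHess (fun z => Real.log (g e z).det.re) (e x) + (b : ℂ) •
          (cHess (fun z => Real.log (w e z).det.re) (e x) +
            cHess (fun z => σ (e.symm z)) (e x))) := by
      rw [cHess_const_mul _ (htwo (s1.add (contDiffAt_const.mul (s2.add s3)))),
        cHess_add (htwo s1) (htwo (contDiffAt_const.mul (s2.add s3))),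
        cHess_const_mul _ (htwo (s2.add s3)), cHess_add (htwo s2) (htwo s3)]
    have h2 := hke e x hx
    unfold chiF at h2
    set A := cHess (fun z => Real.log (g e z).det.re) (e x)
    set W := cHess (fun z => Real.log (w e z).det.re) (e x)
    set S := cHess (fun z => σ (e.symm z)) (e x)
    have h3 : A + (b : ℂ) • (W + S) = g e (e x) - ((1 + b : ℝ) : ℂ) • (t : ℂ) • w e (e x) := by
      have h4 : g e (e x) = A + (t : ℂ) • w e (e x) +
        (b : ℂ) • (W + (t : ℂ) • w e (e x) + S) := h2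
      rw [h4]
      push_cast
      simp only [smul_add, add_smul, one_smul]
      abel
    rw [h1, h3, smul_sub, smul_smul, ← Complex.ofReal_mul, inv_mul_cancel₀ hb0.ne',
      Complex.ofReal_one, one_smul, Complex.ofReal_zero, zero_smul, add_zero]
    have hG := hg.posDef e x hx
    have hT : ((g e (e x))⁻¹ * w e (e x)).trace.re ≤ C := by
      have := htr x
      rw [trX_eq hgH hwH.isForm hx] at this
      exact this
    have h5 := C2.trace_smul_sub_posSemidef hG (hw.posDef e x hx).posSemidef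
    rw [← C2.trace_re_eq hG (hw.posDef e x hx)] at h5
    have h6 : ((C : ℂ) • g e (e x) - w e (e x)).PosSemidef := by
      have h4 : (C : ℂ) • g e (e x) - w e (e x) =
          (((((g e (e x))⁻¹ * w e (e x)).trace.re : ℝ) : ℂ) • g e (e x) - w e (e x)) +
          ((C - ((g e (e x))⁻¹ * w e (e x)).trace.re : ℝ) : ℂ) • g e (e x) := by
        push_cast; rw [sub_smul]; abel
      rw [h4]
      exact h5.add (posSemidef_ofReal_smul hG.posSemidef (sub_nonneg.2 hT))
    have h7 : (((1 + b)⁻¹ : ℝ) : ℂ) • g e (e x) - (t : ℂ) • w e (e x) =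
        (((1 + b)⁻¹ - t * C : ℝ) : ℂ) • g e (e x) +
          (t : ℂ) • ((C : ℂ) • g e (e x) - w e (e x)) := by
      rw [smul_sub, smul_smul]
      push_cast
      rw [sub_smul]
      abel
    rw [h7]
    refine (posDef_ofReal_smul hG ?_).add_posSemidef (posSemidef_ofReal_smul h6 ht.le)
    have h8 : (1 : ℝ) / 2 ≤ (1 + b)⁻¹ := by
      rw [one_div]
      exact inv_anti₀ hb0 (by linarith)
    linarith

end

/-- **Block FIN** -/
theorem finBlock (n : ℕ) (X : Type) [TopologicalSpace X] [ChartedSpace (Cm n) X]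
    [IsManifold 𝓘(ℂ, Cm n) ω X] [T2Space X] [CompactSpace X] : FinBlock n X := by
  intro hChi hTke hExp hMach hDD1 hDD2 w h hw hh hneg hnef hP
  have hpos : ∀ t : ℝ, 0 < t → t ≤ 1 → Pos w t := by
    intro t ht _
    obtain ⟨φ, hφ, hpsd⟩ := hnef (t / 2) (half_pos ht)
    refine ⟨φ, hφ, fun e x hx => ?_⟩
    have h1 : cHess (φ e) (e x) + (t : ℂ) • w e (e x) =
        (cHess (φ e) (e x) + ((0 + t / 2 : ℝ) : ℂ) • w e (e x)) +
          ((t / 2 : ℝ) : ℂ) • w e (e x) := by
      rw [add_assoc, ← add_smul]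
      congr 2
      push_cast; ring
    rw [h1]
    exact Matrix.PosDef.posSemidef_add (hpsd e x hx)
      (posDef_ofReal_smul (hw.posDef e x hx) (half_pos ht))
  set v0 : ℝ := PP (phi0 w) w 0 with hv0
  have hPP : ∀ t : ℝ, 0 < t → t ≤ 1 → v0 ≤ PP (phi0 w) w t := fun t ht ht1 =>
    PP_zero_le hw hpos ht ht1
  obtain ⟨δ, hδ, hδ'⟩ := hChi w hw v0 hP fun t ht ht1 => ⟨hpos t ht ht1, hPP t ht ht1⟩
  obtain ⟨Λ, V1, hΛ, hT⟩ := hTke w hw
  obtain ⟨b1, hb1, K, hK, hE⟩ := hExp w hw.toIsHermitian Λ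
  obtain ⟨b0, hb0, hb01, hM⟩ := hMach w hw Λ v0 hΛ hP
  set b : ℝ := min b0 b1 with hbdef
  have hb : 0 < b := lt_min hb0 hb1
  have hbb0 : b ≤ b0 := min_le_left _ _
  have hbb1 : b ≤ b1 := min_le_right _ _
  have hb1' : b ≤ 1 := hbb0.trans hb01
  obtain ⟨C1, hC1, hD2⟩ := hDD2 w h hw hh hneg δ b Λ v0 V1 K hδ hb hb1' hΛ hP
  obtain ⟨C, hC, hMC⟩ := hM b hb.le hbb0 V1 C1
  -- the parameter `t`
  set t : ℝ := min 1 (1 / (4 * C)) with htdef
  have ht : 0 < t := lt_min one_pos (by positivity)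
  have ht1 : t ≤ 1 := min_le_left _ _
  have htC : t * C ≤ 1 / 4 := by
    have h1 : t ≤ 1 / (4 * C) := min_le_right _ _
    calc t * C ≤ 1 / (4 * C) * C := mul_le_mul_of_nonneg_right h1 hC.le
      _ = 1 / 4 := by field_simp
  -- run 1
  obtain ⟨C', hC', hD1⟩ := hDD1 w h hw hh hneg t ht
  obtain ⟨Ct, hCt, hMCt⟩ := hM b hb.le hbb0 V1 C'
  obtain ⟨ε, hε, hD2'⟩ := hD2 Ct
  -- run 2
  obtain ⟨σ, hσ, hσε⟩ := hδ' t ht ht1 ε hε
  obtain ⟨g, hke, hctrl⟩ := hT t b ht ht1 hb.le hb1' σ hσ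
  have hc := hctrl v0 (hPP t ht ht1)
  have hexp := hE σ hσ.smooth hσ.nonpos hσ.zero hc.qpsh b hb.le hbb1
  have htr1 : ∀ x, trX g w x ≤ Ct := hMCt g σ hc fun B hB hB0 hB1 =>
    hD1 g hc.kahler (ricGeS_of_tke hb.le hσ hke) B hB hB0 hB1
  have htr2 : ∀ x, trX g w x ≤ C :=
    hMC g σ hc (hD2' t σ g ht ht1 hσ hc hke htr1 hexp hσε)
  exact pos_zero_of_trace hw hc.kahler ht hb.le hb1' hC htC hσ.smooth hke htr2

end Vale.Agent.P272.K.AMP.BIG
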