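import Vale.Agent.P272.K.AMP.BIG.H977.Fin
import Vale.Agent.P272.K.AMP.BIG.H821.Mach
import Vale.Agent.P272.K.AMP.BIG.H327.Chi
import Vale.Agent.P272.K.AMP.BIG.H232.Tke
import Vale.Agent.P272.K.AMP.BIG.H420.DD2
import Vale.Agent.P272.K.AMP.BIG.H493.Final

/-! # AMP-BIG: the final theorems -/

open scoped Manifold ContDiff ComplexOrder Topology
open Complex Set Filter MeasureTheory

set_option linter.all false

noncomputable section

namespace Vale.Agent.P272.K.AMP.BIG

open Vale.Agent.P272.K.INT (intX PP)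

/-- Hermitian `HSC ≤ 0` and `(K_X)^n > 0` give that `K_X` is ample, `n ≥ 3` -/
theorem ampleBig_three (n : ℕ) (hn : 3 ≤ n) : AmpleBig n := by
  intro X _ _ _ _ _ _ w h hw hh hneg hP
  have hnef := NEF.nef_of_nonpos (by omega : 1 ≤ n) hw hh hneg
  obtain ⟨φ, hφ, hpos⟩ := finBlock n X (H327.chiBlock (by omega)) (tkeBlock n X) (expBlock n X)
    (H821.machBlock hn X) (dd1Block (by omega)) (dd2Block (by omega)) w h hw hh hneg hnef hP
  refine ⟨φ, hφ, fun e x hx => ?_⟩
  have := hpos e x hx
  simpa using this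

/-- **AMP-BIG**: on a compact connected Kähler manifold with a Hermitian metric of nonpositive
holomorphic sectional curvature, `(K_X)^n > 0` implies that `K_X` is positive. -/
theorem ampleBig_final : ∀ n, 1 ≤ n → AmpleBig n := ampleBig_of_three ampleBig_three

section
variable {n : ℕ} {X : Type} [TopologicalSpace X] [T2Space X] [CompactSpace X] [ConnectedSpace X]
    [ChartedSpace (Cm n) X] [IsManifold 𝓘(ℂ, Cm n) ω X]
    {w h : Chart n X → Cm n → Matrix (Fin n) (Fin n) ℂ}

/-- HSC `≤ 0` and `(K_X)^n > 0` (with any canonical metric) -/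
theorem ample_of_big (hn : 1 ≤ n) (hw : IsKahler w) (hh : IsHermitian h) (hneg : NonposHSC h)
    {φ : Chart n X → Cm n → ℝ} (hφ : IsCanonicalMetric φ) {I : ℝ} (hI : 0 < I)
    (hII : IsIntegral (fun e z => (cHess (φ e) z).det.re) I) :
    ∃ φ : Chart n X → Cm n → ℝ, IsCanonicalMetric φ ∧
      ∀ e x, At e x → (cHess (φ e) (e x)).PosDef :=
  ampleBig_final n hn X w h hw hh hneg (PP_pos_of_isIntegral hw hφ hI hII)

/-- **quasi-negative holomorphic sectional curvature of any Hermitian metric implies that `K_X`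
is ample** -/
theorem ample_of_quasiNeg (hn : 1 ≤ n) (hw : IsKahler w) (hh : IsHermitian h)
    (hq : QuasiNegHSC h) :
    ∃ φ : Chart n X → Cm n → ℝ, IsCanonicalMetric φ ∧
      ∀ e x, At e x → (cHess (φ e) (e x)).PosDef :=
  ampleBig_final n hn X w h hw hh hq.1 (PP_pos_of_quasiNeg hn hw hh hq)

end

end Vale.Agent.P272.K.AMP.BIG
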